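import Vale.Agent.P047.Main3

namespace Vale.Agent.Results.P047.LinearC
open Vale.Agent.P047

/-- `M(d) ≤ 0.936 d` for `d ≥ 16`. -/
theorem result (n d : ℕ) (hd16 : 16 ≤ d) (f : (Fin n → Bool) → ℝ)
    (hf : ∀ x, f x = 1 ∨ f x = -1)
    (hd : ∀ S : Finset (Fin n), d < S.card → fhat f S = 0) :
    ∑ i : Fin n, fhat f {i} ≤ 0.936 * (d : ℝ) :=
  upper3 f hf hd hd16

end Vale.Agent.Results.P047.LinearC
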